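import Crest.Agent.R128b.Defs

/-! # Covering and first-moment lemmas (task Cover) -/

set_option autoImplicit false

namespace Crest.Agent.R128b

open Metric MeasureTheory

/-- Vitali gain: no measurability is assumed. -/
theorem vitali_gain (A U : Set ℝ) (θ R : ℝ) (hθ : 0 ≤ θ)
    (h : ∀ z ∈ A, ∃ ρ, 0 < ρ ∧ ρ ≤ R ∧ closedBall z ρ ⊆ U ∧
      volume (A ∩ closedBall z (5 * ρ)) ≤ ENNReal.ofReal (θ * ρ)) :
    volume A ≤ ENNReal.ofReal θ * volume U := by
  sorry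

open Classical in
/-- first moment bound; the sets are arbitrary. -/
theorem first_moment {α ι : Type*} [MeasurableSpace α] (μ : Measure α) (F : Finset ι)
    (A : Set α) (S : ι → Set α) (N : ℝ)
    (h : ∀ z ∈ A, N ≤ ((F.filter (fun i => z ∈ S i)).card : ℝ)) :
    ENNReal.ofReal N * μ A ≤ ∑ i ∈ F, μ (S i) := by
  sorry

open Classical in
/-- bounded overlap. -/
theorem bounded_overlap {α ι : Type*} [MeasurableSpace α] (μ : Measure α) (F : Finset ι)
    (W : Set α) (U : ι → Set α) (N : ℝ) (hU : ∀ i ∈ F, MeasurableSet (U i))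
    (hW : ∀ i ∈ F, U i ⊆ W) (h : ∀ z, ((F.filter (fun i => z ∈ U i)).card : ℝ) ≤ N) :
    ∑ i ∈ F, μ (U i) ≤ ENNReal.ofReal N * μ W := by
  sorry

/-- ML: comparison of outer measures through a relation that is locally Lipschitz backwards. -/
theorem rel_measure_le (A B : Set ℝ) (r : ℝ → ℝ → Prop) (L ϖ : ℝ) (hL : 0 ≤ L) (hϖ : 0 < ϖ)
    (hex : ∀ a ∈ A, ∃ b ∈ B, r a b)
    (hlip : ∀ a ∈ A, ∀ a' ∈ A, ∀ b b', r a b → r a' b' → |b - b'| ≤ ϖ →
      |a - a'| ≤ L * |b - b'|) :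
    volume A ≤ ENNReal.ofReal L * volume B := by
  sorry

open Classical in
/-- integration of a pathwise inequality between weighted indicator sums. -/
theorem integ_le {α ι κ : Type*} [MeasurableSpace α] (μ : Measure α) [IsProbabilityMeasure μ]
    (F : Finset ι) (G : Finset κ) (A : ι → Set α) (B : κ → Set α) (a : ι → ℝ) (b : κ → ℝ) (c : ℝ)
    (hA : ∀ i ∈ F, MeasurableSet (A i)) (hB : ∀ k ∈ G, MeasurableSet (B k))
    (h : ∀ᵐ x ∂μ, ∑ i ∈ F, (if x ∈ A i then a i else 0) ≤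
      c + ∑ k ∈ G, (if x ∈ B k then b k else 0)) :
    ∑ i ∈ F, a i * μ.real (A i) ≤ c + ∑ k ∈ G, b k * μ.real (B k) := by
  sorry

/-- geometric summation over ranked scales. -/
theorem sum_rank_le (S : Finset ℕ) (f : ℕ → ℝ) (a : ℝ) (G : ℕ) (ha : 0 ≤ a)
    (h1 : ∀ s ∈ S, f s ≤ a)
    (h2 : ∀ s ∈ S, ∀ s' ∈ S, s' + G ≤ s → f s ≤ a * (3 / 4 : ℝ) ^ s') :
    ∑ s ∈ S, f s ≤ a * (G + 4) := by
  sorry

/-- at most `G` scales have no much smaller scale in the set. -/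
theorem card_rank_le (S T : Finset ℕ) (G : ℕ) (hT : T ⊆ S)
    (h : ∀ s ∈ T, ∀ s' ∈ S, ¬ s' + G ≤ s) : T.card ≤ G := by
  sorry

end Crest.Agent.R128b
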