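import Crest.Agent.R128b.Defs

/-! # Complex analysis: Cauchy, Schwarz, Taylor (task Cplx) -/

set_option autoImplicit false

namespace Crest.Agent.R128b

open Metric

/-- Cauchy estimate for the derivative at the centre. -/
theorem cauchy_deriv {f : ℂ → ℂ} {c f' : ℂ} {R B : ℝ} (hR : 0 < R) (hf : Differentiable ℂ f)
    (hd : HasDerivAt f f' c) (hB : ∀ w ∈ closedBall c R, ‖f w‖ ≤ B) : ‖f'‖ ≤ B / R := by
  sorry

/-- Schwarz lemma. -/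
theorem schwarz {f : ℂ → ℂ} {c : ℂ} {R B : ℝ} (hR : 0 < R) (hf : DifferentiableOn ℂ f (ball c R))
    (hB : ∀ w ∈ ball c R, ‖f w - f c‖ ≤ B) (w : ℂ) (hw : w ∈ ball c R) :
    ‖f w - f c‖ ≤ B / R * ‖w - c‖ := by
  sorry

/-- Taylor polynomial approximation. -/
theorem taylor_poly {f : ℂ → ℂ} {c : ℂ} {R B : ℝ} (hR : 0 < R)
    (hf : DifferentiableOn ℂ f (ball c R)) (hB : ∀ w ∈ ball c R, ‖f w‖ ≤ B) (d : ℕ) :
    ∃ P : Polynomial ℂ, P.natDegree ≤ d ∧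
      ∀ w : ℂ, ‖w - c‖ ≤ R / 2 → ‖f w - P.eval w‖ ≤ 2 * B * (‖w - c‖ / R) ^ (d + 1) := by
  sorry

/-- first-order Taylor estimate. -/
theorem taylor_one {f : ℂ → ℂ} {c f' : ℂ} {R B : ℝ} (hR : 0 < R)
    (hf : DifferentiableOn ℂ f (ball c R)) (hd : HasDerivAt f f' c)
    (hB : ∀ w ∈ ball c R, ‖f w‖ ≤ B) (w : ℂ) (hw : ‖w - c‖ ≤ R / 2) :
    ‖f w - f c - (w - c) * f'‖ ≤ 2 * B * (‖w - c‖ / R) ^ 2 := by
  sorry

/-- mean value inequality on a disc. -/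
theorem norm_sub_le_of_deriv {f f' : ℂ → ℂ} {c : ℂ} {r M : ℝ}
    (hd : ∀ w, HasDerivAt f (f' w) w) (hM : ∀ w ∈ closedBall c r, ‖f' w‖ ≤ M)
    (w : ℂ) (hw : w ∈ closedBall c r) : ‖f w - f c‖ ≤ M * r := by
  sorry

end Crest.Agent.R128b
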