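import Crest.Agent.R128b.LinR

/-! # Decaying solutions, norm bounds, stability under perturbation (task Decay) -/

set_option autoImplicit false

namespace Crest.Agent.R128b

variable {ω : ℝ}

theorem Rgood.mono (hω : 10000 ≤ ω) {a a' H H' : ℕ} {v : ℕ → ℝ} (h : Rgood ω a H v)
    (ha : a' ≤ a) (hH : H' ≤ H) : Rgood ω a' H' v := by
  sorry

/-- NormBound: a solution pinched between `μ` and `3` on `[0, b]` bounds the Dirichlet solution.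
(Track the coefficient of `y` along the pair of `ψ = fwd v p q`; the Wronskian is `p`.) -/
theorem norm_bound (hω : 10000 ≤ ω) {v : ℕ → ℝ} (hv : Bdd ω v) (p q μ : ℝ) (b : ℕ)
    (hμ : 0 < μ) (hμ1 : μ ≤ 1) (hlow : ∀ j < b, μ ≤ pn (fwd v p q) j)
    (hup : ∀ j ≤ b, |fwd v p q j| ≤ 3) :
    ∀ j ≤ b, |fwd v 0 1 j| ≤ 30 * (b + 1) * ω ^ nn / μ ^ 2 := by
  sorry

/-- Decay: along a hyperbolic stretch a solution that is almost contracted at the end decays. -/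
theorem decay (hω : 10000 ≤ ω) {v : ℕ → ℝ} (hv : Bdd ω v) {H : ℕ} (hR : Rgood ω (NN - 3) H v)
    (g : ℝ) (hg : |alp (fwd v 1 g) (fwd v 0 1) H| * pn (fwd v 0 1) H ^ 2 ≤ ω) :
    ∀ m, 1 ≤ m → m ≤ H → pn (fwd v 1 g) m ≤ 1 / ω ^ ((NN - 14) * m) := by
  sorry

theorem decay_ex (hω : 10000 ≤ ω) {v : ℕ → ℝ} (hv : Bdd ω v) {H : ℕ}
    (hR : Rgood ω (NN - 3) H v) :
    ∃ g : ℝ, ∀ m, 1 ≤ m → m ≤ H → pn (fwd v 1 g) m ≤ 1 / ω ^ ((NN - 14) * m) := by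
  sorry

theorem decay_zero (hω : 10000 ≤ ω) {v : ℕ → ℝ} (hv : Bdd ω v) {H : ℕ}
    (hR : Rgood ω (NN - 3) H v) (e : ℕ) (he : e = H ∨ e = H + 1)
    (hy : pn (fwd v 0 1) H ≤ ω * |fwd v 0 1 e|) :
    ∃ g : ℝ, fwd v 1 g e = 0 ∧
      ∀ m, 1 ≤ m → m ≤ H → pn (fwd v 1 g) m ≤ 1 / ω ^ ((NN - 14) * m) := by
  sorry

/-- a solution entering a hyperbolic stretch in the ascending state grows. -/
theorem grow_of_Rgood (hω : 10000 ≤ ω) {v : ℕ → ℝ} (hv : Bdd ω v) {H : ℕ}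
    (hR : Rgood ω (NN - 3) H v) (a b : ℝ) (hab : |a| ≤ |b|) :
    ∀ m, 1 ≤ m → m ≤ H → |b| * ω ^ ((NN - 4) * m) ≤ pn (fwd v a b) m := by
  sorry

/-- RP: stability of solutions under a perturbation of the potentials that decays along a
hyperbolic stretch (Duhamel with the kernel `ker = ψ̂ y - y ψ̂`, `ψ̂` from `decay_ex`). -/
theorem rp (hω : 10000 ≤ ω) {v v' : ℕ → ℝ} (hv : Bdd ω v) (hv' : Bdd ω v') {H : ℕ}
    (hR : Rgood ω (NN - 3) H v)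
    (hd : ∀ l, 1 ≤ l → l ≤ H → |v' l - v l| ≤ 100 * ω ^ NN / ω ^ ((NN - 14) * l))
    (a b : ℝ) (ha : |a| ≤ 1) (hb : |b| ≤ 1) :
    ∀ j ≤ H + 1, |fwd v' a b j - fwd v a b j| ≤
      |fwd v 0 1 j| / ω ^ (NN - 29) + ω ^ (30 * (j - 1)) / ω ^ NN := by
  sorry

end Crest.Agent.R128b
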