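import Mathlib

/-!
# Row 128 (positive exponent of the standard map, all large k): definitions

Notation used everywhere in `R128`: `K = 2πk = ω ^ NN` with `ω` a large real number, orbits
`x (j+1) + x (j-1) = g (x j)`, potentials `v j = g' (x j) = 2 + K cos (2π x j)`, and the linearised
recurrence `φ (j+1) + φ (j-1) = v j * φ j`.  See `Crest/Agent/R128/Outline.lean` for the proof.
-/

set_option autoImplicit false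

namespace Crest.Agent.R128b

open MeasureTheory

/-- `K = ω ^ NN`. -/
def NN : ℕ := 200000
/-- `nn = NN + 1`: one step changes a pair norm by at most `ω ^ nn`. -/
def nn : ℕ := 200001
/-- Pliss slack. -/
def ee : ℕ := 2000
/-- `hh = NN / 2`. -/
def hh : ℕ := 100000
/-- ratio between the depth of a peak and the basic scale. -/
def Cb : ℕ := 10000000
/-- the basic scale `σ = 192 nn ς` (32 ς bands of width `6 nn`). -/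
def sg (ς : ℕ) : ℕ := 192 * nn * ς
/-- the depth `S = Cb σ` of a peak. -/
def SS (ς : ℕ) : ℕ := Cb * sg ς

/-- Solution of `φ (j+2) = v (j+1) φ (j+1) - φ j` with `φ 0 = a`, `φ 1 = b` (`v 0` is never used). -/
def fwd {R : Type*} [Ring R] (v : ℕ → R) (a b : R) : ℕ → R
  | 0 => a
  | 1 => b
  | (j + 2) => v (j + 1) * fwd v a b (j + 1) - fwd v a b j

/-- Fundamental kernel: the solution vanishing at `l`, equal to `1` at `l+1`, evaluated at `j ≥ l`. -/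
def ker {R : Type*} [Ring R] (v : ℕ → R) (l j : ℕ) : R := fwd (fun i => v (l + i)) 0 1 (j - l)

/-- pair norm of a real sequence on `ℕ`. -/
noncomputable def pn (φ : ℕ → ℝ) (j : ℕ) : ℝ := max |φ j| |φ (j + 1)|
/-- pair norm of a real sequence on `ℤ`. -/
noncomputable def pz (φ : ℤ → ℝ) (j : ℤ) : ℝ := max |φ j| |φ (j + 1)|

/-- projection coefficient of the pair of `φ` on the pair of `y` at index `l` (bilinear). -/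
noncomputable def alp {R : Type*} [Field R] (φ y : ℕ → R) (l : ℕ) : R :=
  (φ l * y l + φ (l + 1) * y (l + 1)) / (y l ^ 2 + y (l + 1) ^ 2)

noncomputable def gR (ω x : ℝ) : ℝ := 2 * x + ω ^ NN / (2 * Real.pi) * Real.sin (2 * Real.pi * x)
noncomputable def vR (ω x : ℝ) : ℝ := 2 + ω ^ NN * Real.cos (2 * Real.pi * x)
noncomputable def gC (ω : ℝ) (x : ℂ) : ℂ :=
  2 * x + (ω : ℂ) ^ NN / (2 * (Real.pi : ℂ)) * Complex.sin (2 * (Real.pi : ℂ) * x)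
noncomputable def vC (ω : ℝ) (x : ℂ) : ℂ := 2 + (ω : ℂ) ^ NN * Complex.cos (2 * (Real.pi : ℂ) * x)

/-- real orbit `x 0 = a`, `x 1 = b`, `x (j+2) = g (x (j+1)) - x j`. -/
noncomputable def orbR (ω : ℝ) (a b : ℝ) : ℕ → ℝ
  | 0 => a
  | 1 => b
  | (j + 2) => gR ω (orbR ω a b (j + 1)) - orbR ω a b j

/-- complex orbit. -/
noncomputable def orbC (ω : ℝ) (a b : ℂ) : ℕ → ℂ
  | 0 => a
  | 1 => b
  | (j + 2) => gC ω (orbC ω a b (j + 1)) - orbC ω a b j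

noncomputable def potR (ω a b : ℝ) : ℕ → ℝ := fun j => vR ω (orbR ω a b j)
noncomputable def potC (ω : ℝ) (a b : ℂ) : ℕ → ℂ := fun j => vC ω (orbC ω a b j)
/-- `yR ω a b j = ∂ x j / ∂ b`. -/
noncomputable def yR (ω a b : ℝ) : ℕ → ℝ := fwd (potR ω a b) 0 1
noncomputable def yC (ω : ℝ) (a b : ℂ) : ℕ → ℂ := fwd (potC ω a b) 0 1
/-- `uC ω a b j = ∂ x j / ∂ a`. -/
noncomputable def uC (ω : ℝ) (a b : ℂ) : ℕ → ℂ := fwd (potC ω a b) 1 0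

/-- potentials are bounded by `K + 2`. -/
def Bdd {ι : Type*} (ω : ℝ) (v : ι → ℝ) : Prop := ∀ j, |v j| ≤ ω ^ NN + 2

/-- a critical value of the potential. -/
def crit (ω x : ℝ) : Prop := |x| < ω ^ (NN - 1) + 1

/-- growth of the Dirichlet solution at rate `ω ^ a` up to horizon `H`. -/
def Rgood (ω : ℝ) (a H : ℕ) (v : ℕ → ℝ) : Prop :=
  ∀ m, 1 ≤ m → m ≤ H → ω ^ (a * m) ≤ pn (fwd v 0 1) m

/-- potentials to the right / to the left of the base `c`. -/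
def rt (V : ℤ → ℝ) (c : ℤ) : ℕ → ℝ := fun j => V (c + j)
def lf (V : ℤ → ℝ) (c : ℤ) : ℕ → ℝ := fun j => V (c - j)
/-- shifted and reflected potentials. -/
def sh (c : ℤ) (V : ℤ → ℝ) : ℤ → ℝ := fun j => V (c + j)
def rf (V : ℤ → ℝ) : ℤ → ℝ := fun j => V (-j)

/-- the base `t` fails to be forward hyperbolic up to horizon `H`. -/
def fail (ω : ℝ) (H : ℕ) (V : ℤ → ℝ) (t : ℤ) : Prop := ¬ Rgood ω (NN - 2) H (rt V t)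

def IsSol (V ψ : ℤ → ℝ) : Prop := ∀ j : ℤ, ψ (j + 1) + ψ (j - 1) = V j * ψ j

/-- the two-sided solution with `ψ c = a`, `ψ (c+1) = b`. -/
def solZ (V : ℤ → ℝ) (c : ℤ) (a b : ℝ) : ℤ → ℝ := fun j =>
  if c ≤ j then fwd (rt V c) a b (j - c).toNat else fwd (lf V c) a (V c * a - b) (c - j).toNat

/-- running maximum of `|y j|`, `1 ≤ j`, of the Dirichlet solution (`rm v 0 = rm v 1 = 1`). -/
noncomputable def rm (v : ℕ → ℝ) : ℕ → ℝ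
  | 0 => 1
  | (j + 1) => max (rm v j) |fwd v 0 1 (j + 1)|

/-- level band (width `6 nn`) of the time `j`. -/
noncomputable def band (ω : ℝ) (v : ℕ → ℝ) (j : ℕ) : ℕ :=
  ⌊Real.logb ω (rm v j) / (6 * nn)⌋₊

/-- number of times `1 ≤ j ≤ B` in band `β`. -/
noncomputable def Tc (ω : ℝ) (v : ℕ → ℝ) (B β : ℕ) : ℕ :=
  ((Finset.Icc 1 B).filter (fun j => band ω v j = β)).card

noncomputable def Uc (ω : ℝ) (v : ℕ → ℝ) (B β : ℕ) : ℕ :=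
  Tc ω v B (β - 1) + Tc ω v B β + Tc ω v B (β + 1)

/-- the times `1 ≤ j ≤ B` whose band lies in `[lo, hi]`. -/
noncomputable def TT (ω : ℝ) (v : ℕ → ℝ) (B lo hi : ℕ) : Finset ℕ :=
  (Finset.Icc 1 B).filter (fun j => lo ≤ band ω v j ∧ band ω v j ≤ hi)

/-- plateau weight of the time `j`. -/
noncomputable def phi (ω : ℝ) (v : ℕ → ℝ) (B T0 j : ℕ) : ℝ :=
  if T0 ≤ 3 * Uc ω v B (band ω v j) then 1 / Real.sqrt (Uc ω v B (band ω v j)) else 0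

/-- plateau charge. -/
noncomputable def Q1 (ω : ℝ) (v : ℕ → ℝ) (B T0 ς lo hi : ℕ) : ℝ :=
  ∑ j ∈ TT ω v B lo hi, (phi ω v B T0 j + (1 / 2 : ℝ) ^ ς)

open Classical in
/-- critical charge. -/
noncomputable def Q2 (ω : ℝ) (v : ℕ → ℝ) (B T0 lo hi : ℕ) : ℝ :=
  (4 + Real.sqrt T0) * (((TT ω v B lo hi).filter (fun j => Uc ω v B (band ω v j) < T0 ∧
    ∃ s, 1 ≤ s ∧ j ≤ s + 20 ∧ s ≤ j + T0 + 40 ∧ crit ω (v s))).card : ℝ)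

/-- the side `v` is not spoiled at scale `ς`. -/
def Unsp (ω : ℝ) (v : ℕ → ℝ) (B T0 ς : ℕ) : Prop :=
  200 * Q1 ω v B T0 ς (998 * ς) (32102 * ς) + Q2 ω v B T0 (998 * ς) (32102 * ς) < 4800 * ς

/-- a peak of depth `S` at `c` with window `[a, b]`. -/
def Peak (ω : ℝ) (V : ℤ → ℝ) (S : ℕ) (c : ℤ) (ψ : ℤ → ℝ) (a b : ℤ) : Prop :=
  IsSol V ψ ∧ ψ c = 1 ∧ a < c ∧ c < b ∧ (∀ j, a ≤ j → j ≤ b → |ψ j| ≤ 3) ∧
    pz ψ a ≤ 4 / ω ^ S ∧ pz ψ (b - 1) ≤ 4 / ω ^ S ∧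
    (∀ j, a ≤ j → j < b → 1 / (3 * ω ^ (S + nn)) ≤ pz ψ j) ∧ ((b - a : ℤ) : ℝ) ≤ ω ^ S

/-- the selected-top structure at scale `ς` with slack `u` (`u = 1` exact, `u = 2` relaxed). -/
def Str (u ω : ℝ) (V : ℤ → ℝ) (θ : ℝ) (ς H : ℕ) (c : ℤ) (ψ : ℤ → ℝ) (a' a0 c0 b' : ℤ) : Prop :=
  IsSol V ψ ∧ ψ c = 1 ∧ a' ≤ a0 ∧ a0 < c ∧ c ≤ c0 ∧ c0 < b' ∧
    ((b' - a' : ℤ) : ℝ) ≤ ω ^ sg ς ∧ b' - a' ≤ H + 2 ∧
    (∀ j, a' ≤ j → j ≤ b' → |ψ j| < |ψ c0| + u / ω ^ (5 * sg ς)) ∧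
    θ * |ψ c0| < 1 + u / ω ^ (5 * sg ς) ∧
    (∀ j, a0 ≤ j → j < c → |ψ j| < θ * |ψ c0| + u / ω ^ (5 * sg ς)) ∧
    pz ψ a0 < (2 + u) / ω ^ sg ς ∧
    pz ψ a' < (2 + u) / ω ^ (10 * sg ς) ∧ pz ψ (b' - 1) < (2 + u) / ω ^ (10 * sg ς) ∧
    (∀ j, a' ≤ j → j < b' → 1 / ((1 + u) * ω ^ (10 * sg ς + nn)) < pz ψ j) ∧
    (∀ j, c ≤ j → j < c0 → 1 / ((1 + u) * ω ^ (sg ς + nn)) < pz ψ j)

/-- relaxed (coarse) event `Ẽ`. -/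
def EvT (ω θ : ℝ) (ς H : ℕ) (V : ℤ → ℝ) (c : ℤ) : Prop :=
  ∃ ψ a' a0 c0 b', Str 2 ω V θ ς H c ψ a' a0 c0 b'

/-- fine event `E`: the structure sits inside a peak window of depth `SS ς`. -/
def EvE (ω θ : ℝ) (ς H : ℕ) (V : ℤ → ℝ) (c : ℤ) : Prop :=
  ∃ ψ a a' a0 c0 b' b, Str 1 ω V θ ς H c ψ a' a0 c0 b' ∧ a ≤ a' ∧ b' ≤ b ∧
    ((b - a : ℤ) : ℝ) ≤ ω ^ sg ς ∧ b - a ≤ H + 2 ∧ (∀ j, a ≤ j → j ≤ b → |ψ j| < 3) ∧
    pz ψ a < 3 / ω ^ SS ς ∧ pz ψ (b - 1) < 3 / ω ^ SS ς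

/-- fine event with both sides unspoiled. -/
def EvG (ω θ : ℝ) (ς H T0 : ℕ) (V : ℤ → ℝ) (c : ℤ) : Prop :=
  EvE ω θ ς H V c ∧ Unsp ω (rt V c) (H + 2) T0 ς ∧ Unsp ω (lf V c) (H + 2) T0 ς

/-- the grid of thresholds. -/
noncomputable def th (G g : ℕ) : ℝ := 1 - (g : ℝ) / (2 * G)

/-- one side of a peak of depth `SS ς`. -/
def HalfPeak (ω : ℝ) (v : ℕ → ℝ) (ς H : ℕ) (τ : ℝ) (b : ℕ) : Prop :=
  1 ≤ b ∧ b ≤ H ∧ (b : ℝ) ≤ ω ^ sg ς ∧ (∀ j ≤ b, |fwd v 1 τ j| ≤ 3) ∧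
    pn (fwd v 1 τ) (b - 1) ≤ 3 / ω ^ SS ς

/-- success: a record time of low level after which the orbit is hyperbolic. -/
def Succ (ω : ℝ) (v : ℕ → ℝ) (ς H : ℕ) : Prop :=
  ∃ t, 1 ≤ t ∧ (∀ s ≤ t, |fwd v 0 1 s| ≤ |fwd v 0 1 t|) ∧ |fwd v 0 1 t| ≤ ω ^ (1010 * sg ς) ∧
    Rgood ω (NN - 3) H (fun j => v (t - 1 + j))

/-- `t` is a standard time for the point `z` of the line `x 0 = ξ`. -/
def Std (ω ξ z : ℝ) (t : ℕ) : Prop :=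
  yR ω ξ z t ≠ 0 ∧ ∀ z' : ℝ, |z' - z| * |yR ω ξ z t| ≤ 5 →
    |yR ω ξ z' t - yR ω ξ z t| ≤ |yR ω ξ z t| / 10 ∧
      ∀ s < t, |yR ω ξ z' s| * ω ^ hh ≤ |yR ω ξ z t|

/-- robust record time. -/
def Rec (ω : ℝ) (v : ℕ → ℝ) (R : ℕ) : Prop :=
  1 ≤ R ∧ ∀ s < R, |fwd v 0 1 s| * ω ^ (hh - 1) ≤ |fwd v 0 1 R|

/-- two-sided Pliss time `R` on one side of a peak, with the tangency bound. -/
def Pl (ω : ℝ) (v : ℕ → ℝ) (ς : ℕ) (τ : ℝ) (R : ℕ) : Prop :=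
  ∃ t, 1 ≤ t ∧ t < R ∧ (t : ℝ) ≤ ω ^ sg ς ∧ (∀ s ≤ t, |fwd v 0 1 s| ≤ |fwd v 0 1 t|) ∧
    |fwd v 0 1 t| ≤ ω ^ (1010 * sg ς) ∧
    (∀ s, t ≤ s → s < R → |fwd v 0 1 s| * ω ^ ((NN - ee) * (R - s)) ≤ |fwd v 0 1 R|) ∧
    (∀ j ≤ R + 1, |fwd v 1 τ j| ≤ 3) ∧
    ω ^ (24 * nn * Cb * ς) ≤ ω ^ nn * |fwd v 0 1 R| ∧
    |fwd v 0 1 R| ≤ ω ^ (48 * nn * Cb * ς + 2 * nn) ∧
    fwd v 0 1 (R + 1) ≠ 0 ∧
    |fwd v 1 0 (R + 1) / fwd v 0 1 (R + 1) + τ| ≤ 2 / (ω ^ (3 * (NN - ee)) * fwd v 0 1 R ^ 2)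

/-- holonomy property: every `1`-Lipschitz graph is mostly forward hyperbolic. -/
def HP (ω : ℝ) (H : ℕ) (δ : ℝ) : Prop :=
  ∀ υ : ℝ → ℝ, LipschitzWith 1 υ → ∀ ξ0 : ℝ,
    volume {ξ ∈ Set.Icc ξ0 (ξ0 + 1) | ¬ Rgood ω (NN - 3) H (potR ω (υ ξ) ξ)} ≤ ENNReal.ofReal δ

/-- shadowing relation between the orbits of `(α, ξ)` and `(β, ξ')`, glued at index `e`. -/
def Sh (ω : ℝ) (H e : ℕ) (α ξ β ξ' : ℝ) : Prop :=
  (∀ j, 1 ≤ j → j ≤ H → |orbR ω β ξ' j - orbR ω α ξ j| ≤ 6 / ω ^ ((NN - 14) * j)) ∧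
    orbR ω β ξ' e = orbR ω α ξ e

/-! ### the ladder of discs -/

noncomputable def rho (ω : ℝ) (i : ℕ) : ℝ := 1 / (10 * ω ^ (4 * nn * i))
/-- centre of the generation-`i` interval of `z`. -/
noncomputable def ctr (ω : ℝ) (i : ℕ) (z : ℝ) : ℝ :=
  2 * rho ω (i + 1) * (round (z / (2 * rho ω (i + 1))) : ℤ)
/-- time `l` is tame on the disc of radius `rho ω i` about `ζ`. -/
def Tame (ω ξ : ℝ) (i : ℕ) (ζ : ℝ) (l : ℕ) : Prop :=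
  ∀ w ∈ Metric.closedBall (ζ : ℂ) (rho ω i), ‖orbC ω ξ w l - orbC ω ξ ζ l‖ ≤ 1 / 10
/-- first untame time (`0` if there is none). -/
noncomputable def jj (ω ξ : ℝ) (i : ℕ) (ζ : ℝ) : ℕ := sInf {l | ¬ Tame ω ξ i ζ l}
/-- oscillation at time `l` on the small disc. -/
noncomputable def osc (ω ξ : ℝ) (i : ℕ) (ζ : ℝ) (l : ℕ) : ℝ :=
  sSup ((fun w => ‖orbC ω ξ w l - orbC ω ξ ζ l‖) '' Metric.closedBall (ζ : ℂ) (3 * rho ω (i + 1)))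
/-- the one of the last two times with the larger oscillation. -/
noncomputable def li (ω ξ : ℝ) (i : ℕ) (ζ : ℝ) : ℕ :=
  if osc ω ξ i ζ (jj ω ξ i ζ - 1) ≤ osc ω ξ i ζ (jj ω ξ i ζ) then jj ω ξ i ζ else jj ω ξ i ζ - 1
/-- stage `i` is of type (a) for `z`: the real derivative is much smaller than the oscillation. -/
def TypeA (ω ξ : ℝ) (i : ℕ) (z : ℝ) : Prop :=
  (∃ l, ¬ Tame ω ξ i (ctr ω i z) l) ∧
    0 < osc ω ξ i (ctr ω i z) (li ω ξ i (ctr ω i z)) ∧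
    rho ω i * |yR ω ξ z (li ω ξ i (ctr ω i z))| / 10 ≤
      osc ω ξ i (ctr ω i z) (li ω ξ i (ctr ω i z)) ^ 2

/-! ### the law of the potential sequence -/

/-- two-sided potential sequence of the orbit with `x 0 = p.1`, `x 1 = p.2`. -/
noncomputable def VV (ω : ℝ) (p : ℝ × ℝ) : ℤ → ℝ := fun j =>
  if 0 ≤ j then potR ω p.1 p.2 j.toNat else potR ω p.1 (gR ω p.1 - p.2) (-j).toNat

noncomputable def nu (ω : ℝ) : Measure (ℤ → ℝ) :=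
  ((volume : Measure (ℝ × ℝ)).restrict (Set.Ico (0 : ℝ) 1 ×ˢ Set.Ico (0 : ℝ) 1)).map (VV ω)

end Crest.Agent.R128b
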