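import Crest.Agent.R128b.Orb

/-! # The law of the potential sequence (task Law) -/

set_option autoImplicit false

namespace Crest.Agent.R128b

open MeasureTheory

variable {ω : ℝ}

theorem continuous_VV (ω : ℝ) : Continuous (VV ω) := by
  sorry

theorem measurable_VV (ω : ℝ) : Measurable (VV ω) := (continuous_VV ω).measurable

instance isProb_nu (ω : ℝ) : IsProbabilityMeasure (nu ω) := by
  sorry

theorem rt_VV (ω ξ z : ℝ) : rt (VV ω (ξ, z)) 0 = potR ω ξ z := by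
  sorry

theorem lf_VV (ω ξ z : ℝ) : lf (VV ω (ξ, z)) 0 = potR ω ξ (gR ω ξ - z) := by
  sorry

theorem VV_zero (ω ξ z : ℝ) : VV ω (ξ, z) 0 = vR ω ξ := by
  sorry

theorem VV_add_int (ω ξ z : ℝ) (m n : ℤ) : VV ω (ξ + m, z + n) = VV ω (ξ, z) := by
  sorry

theorem sh_one_VV (ω ξ z : ℝ) : sh 1 (VV ω (ξ, z)) = VV ω (z, gR ω z - ξ) := by
  sorry

theorem bdd_VV (hω : 0 ≤ ω) (p : ℝ × ℝ) : Bdd ω (VV ω p) := by
  sorry

theorem ae_bdd (hω : 0 ≤ ω) : ∀ᵐ V ∂nu ω, Bdd ω V := by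
  sorry

theorem measurable_sh (c : ℤ) : Measurable (sh c) := by
  sorry

/-- the measure of a `1`-periodic set in a unit interval does not depend on the interval. -/
theorem volume_periodic (S : Set ℝ) (hS : MeasurableSet S) (hp : ∀ (x : ℝ) (m : ℤ), x + (m : ℝ) ∈ S ↔ x ∈ S)
    (a : ℝ) : volume (S ∩ Set.Ico a (a + 1)) = volume (S ∩ Set.Ico 0 1) := by
  sorry

/-- Fubini along vertical lines. -/
theorem nu_slice (ω : ℝ) (A : Set (ℤ → ℝ)) (hA : MeasurableSet A) :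
    nu ω A = ∫⁻ ξ in Set.Ico (0 : ℝ) 1, volume ({z | VV ω (ξ, z) ∈ A} ∩ Set.Ico (0 : ℝ) 1) := by
  sorry

/-- stationarity. -/
theorem nu_sh (ω : ℝ) (c : ℤ) (A : Set (ℤ → ℝ)) (hA : MeasurableSet A) :
    nu ω (sh c ⁻¹' A) = nu ω A := by
  sorry

/-- the law seen from the coordinates `(x, y)` of the standard map: `(x 0, x 1) = (x - y, x)`. -/
theorem nu_shear (ω : ℝ) (A : Set (ℤ → ℝ)) (hA : MeasurableSet A) :
    volume ({p : ℝ × ℝ | VV ω (p.1 - p.2, p.1) ∈ A} ∩ Set.Ico (0 : ℝ) 1 ×ˢ Set.Ico (0 : ℝ) 1) =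
      nu ω A := by
  sorry

/-- critical times are rare. -/
theorem nu_crit (hω : 10000 ≤ ω) (t : ℤ) : (nu ω).real {V | crit ω (V t)} ≤ 10 / ω := by
  sorry

end Crest.Agent.R128b
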