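import Crest.Agent.R128b.Lin

/-! # Measurability and shift covariance of the events (task Meas) -/

set_option autoImplicit false

namespace Crest.Agent.R128b

open MeasureTheory

theorem measurableSet_Rgood (ω : ℝ) (a H : ℕ) : MeasurableSet {v : ℕ → ℝ | Rgood ω a H v} := by
  sorry

theorem isClosed_Rgood (ω : ℝ) (a H : ℕ) : IsClosed {v : ℕ → ℝ | Rgood ω a H v} := by
  sorry

theorem measurableSet_fail (ω : ℝ) (H : ℕ) (t : ℤ) : MeasurableSet {V | fail ω H V t} := by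
  sorry

theorem measurableSet_crit (ω : ℝ) (t : ℤ) : MeasurableSet {V : ℤ → ℝ | crit ω (V t)} := by
  sorry

/-- `EvT` is open (rewrite `ψ = solZ V c 1 τ` and use strictness of the inequalities). -/
theorem isOpen_EvT (ω θ : ℝ) (ς H : ℕ) (c : ℤ) : IsOpen {V | EvT ω θ ς H V c} := by
  sorry

theorem isOpen_EvE (ω θ : ℝ) (ς H : ℕ) (c : ℤ) : IsOpen {V | EvE ω θ ς H V c} := by
  sorry

theorem measurableSet_Unsp (ω : ℝ) (B T0 ς : ℕ) :
    MeasurableSet {v : ℕ → ℝ | Unsp ω v B T0 ς} := by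
  sorry

theorem measurableSet_EvG (ω θ : ℝ) (ς H T0 : ℕ) (c : ℤ) :
    MeasurableSet {V | EvG ω θ ς H T0 V c} := by
  sorry

theorem fail_sh (ω : ℝ) (H : ℕ) (V : ℤ → ℝ) (t : ℤ) : fail ω H (sh t V) 0 ↔ fail ω H V t := by
  sorry

theorem EvT_sh (ω θ : ℝ) (ς H : ℕ) (V : ℤ → ℝ) (c : ℤ) :
    EvT ω θ ς H (sh c V) 0 ↔ EvT ω θ ς H V c := by
  sorry

theorem EvG_sh (ω θ : ℝ) (ς H T0 : ℕ) (V : ℤ → ℝ) (c : ℤ) :
    EvG ω θ ς H T0 (sh c V) 0 ↔ EvG ω θ ς H T0 V c := by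
  sorry

end Crest.Agent.R128b
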