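import Crest.Agent.R128b.Shadow
import Crest.Agent.R128b.Law
import Crest.Agent.R128b.Meas
import Crest.Agent.R128b.Cover

/-! # The holonomy lemma (task Hol) -/

set_option autoImplicit false

namespace Crest.Agent.R128b

open MeasureTheory Filter

/-- If few points of the torus fail to be hyperbolic up to horizon `H`, then every Lipschitz graph
is mostly hyperbolic.  Pick a good vertical line `α` (Fubini, integer translation so that
`|υ ξ0 - α| ≤ 1/2`), discard one of `G` disjoint ratio bands
`4^g / 1.5 ≤ |y (H+1)| / |y H| ≤ 1.5 · 4^g` of measure `≤ 1/G`, glue at `e = H+1` above the band and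
at `e = H` below it; the two images are separated by `4^g |y' H| < |y' (H+1)|`; compare measures
with `rel_measure_le`. -/
theorem holonomy (ε : ℝ) (hε : 0 < ε) : ∀ᶠ ω : ℝ in atTop, ∀ (H : ℕ) (δ : ℝ),
    (nu ω).real {V | fail ω H V 0} ≤ δ → HP ω H (δ + ε) := by
  sorry

/-- the holonomy property along the image of a standard interval. -/
theorem hp_std {ω : ℝ} (hω : 10000 ≤ ω) {H : ℕ} {δ : ℝ} (hδ : 0 ≤ δ) (hP : HP ω H δ) (ξ z : ℝ)
    (t : ℕ) (ht : 1 ≤ t) (hS : Std ω ξ z t) :
    volume {z' ∈ Metric.closedBall z (5 / |yR ω ξ z t|) |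
        ¬ Rgood ω (NN - 3) H (fun j => potR ω ξ z' (t - 1 + j))} ≤
      ENNReal.ofReal (14 * δ / |yR ω ξ z t|) := by
  sorry

end Crest.Agent.R128b
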