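import Crest.Agent.R128b.Defs

/-! # Linear recurrences: algebra (task Lin) -/

set_option autoImplicit false

namespace Crest.Agent.R128b

section algebra
variable {R : Type*} [CommRing R]

theorem fwd_zero (v : ℕ → R) (a b : R) : fwd v a b 0 = a := rfl
theorem fwd_one (v : ℕ → R) (a b : R) : fwd v a b 1 = b := rfl
theorem fwd_succ_succ (v : ℕ → R) (a b : R) (j : ℕ) :
    fwd v a b (j + 2) = v (j + 1) * fwd v a b (j + 1) - fwd v a b j := rfl

/-- linearity in the initial data. -/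
theorem fwd_lin (v : ℕ → R) (a b : R) (j : ℕ) :
    fwd v a b j = a * fwd v 1 0 j + b * fwd v 0 1 j := by
  sorry

/-- `fwd` only depends on `v 1, …, v (j-1)`. -/
theorem fwd_congr (v v' : ℕ → R) (a b : R) (j : ℕ) (h : ∀ l, 1 ≤ l → l < j → v l = v' l) :
    fwd v a b j = fwd v' a b j := by
  sorry

/-- any sequence obeying the recurrence on `[0, J]` is given by `fwd`. -/
theorem eq_fwd (v φ : ℕ → R) (J : ℕ)
    (h : ∀ j, j + 2 ≤ J → φ (j + 2) = v (j + 1) * φ (j + 1) - φ j) :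
    ∀ j ≤ J, φ j = fwd v (φ 0) (φ 1) j := by
  sorry

/-- restarting at time `t`. -/
theorem fwd_shift (v : ℕ → R) (a b : R) (t j : ℕ) :
    fwd v a b (t + j) = fwd (fun i => v (t + i)) (fwd v a b t) (fwd v a b (t + 1)) j := by
  sorry

/-- the Wronskian is constant. -/
theorem wronsk (v : ℕ → R) (a b a' b' : R) (j : ℕ) :
    fwd v a b j * fwd v a' b' (j + 1) - fwd v a b (j + 1) * fwd v a' b' j = a * b' - b * a' := by
  sorry

/-- the kernel as a Wronskian-type determinant of two solutions. -/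
theorem ker_mul (v : ℕ → R) (a b a' b' : R) (l j : ℕ) (h : l ≤ j) :
    (a * b' - b * a') * ker v l j = fwd v a b l * fwd v a' b' j - fwd v a' b' l * fwd v a b j := by
  sorry

/-- Duhamel formula for the inhomogeneous recurrence. -/
theorem duhamel (v e φ : ℕ → R) (J : ℕ)
    (h : ∀ j, j + 2 ≤ J → φ (j + 2) = v (j + 1) * φ (j + 1) - φ j + e (j + 1)) :
    ∀ j ≤ J, φ j = fwd v (φ 0) (φ 1) j + ∑ l ∈ Finset.Ico 1 j, ker v l j * e l := by
  sorry

/-- perturbation of the potential. -/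
theorem duhamel_pot (v v' : ℕ → R) (a b : R) (j : ℕ) :
    fwd v' a b j = fwd v a b j + ∑ l ∈ Finset.Ico 1 j, ker v l j * ((v' l - v l) * fwd v' a b l) := by
  sorry

/-- the kernel read backwards: reversing the potentials on `[0, e]`. -/
theorem ker_rev (v : ℕ → R) (e l j : ℕ) (hl : l ≤ j) (hj : j ≤ e) :
    ker (fun i => v (e - i)) (e - j) (e - l) = ker v l j := by
  sorry

end algebra

theorem fwd_ofReal (v : ℕ → ℝ) (a b : ℝ) (j : ℕ) :
    ((fwd v a b j : ℝ) : ℂ) = fwd (fun i => (v i : ℂ)) (a : ℂ) (b : ℂ) j := by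
  sorry

section alpha
variable {F : Type*} [Field F]

/-- decomposition of the pair of `φ = fwd v a b` along the pair of `y = fwd v 0 1` (Wronskian `a`). -/
theorem alp_fst (v : ℕ → F) (a b : F) (l : ℕ)
    (h : fwd v 0 1 l ^ 2 + fwd v 0 1 (l + 1) ^ 2 ≠ 0) :
    fwd v a b l = alp (fwd v a b) (fwd v 0 1) l * fwd v 0 1 l +
      a * fwd v 0 1 (l + 1) / (fwd v 0 1 l ^ 2 + fwd v 0 1 (l + 1) ^ 2) := by
  sorry

theorem alp_snd (v : ℕ → F) (a b : F) (l : ℕ)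
    (h : fwd v 0 1 l ^ 2 + fwd v 0 1 (l + 1) ^ 2 ≠ 0) :
    fwd v a b (l + 1) = alp (fwd v a b) (fwd v 0 1) l * fwd v 0 1 (l + 1) -
      a * fwd v 0 1 l / (fwd v 0 1 l ^ 2 + fwd v 0 1 (l + 1) ^ 2) := by
  sorry

/-- increment of the projection coefficient. -/
theorem alp_succ (v : ℕ → F) (a b : F) (l : ℕ)
    (h : fwd v 0 1 l ^ 2 + fwd v 0 1 (l + 1) ^ 2 ≠ 0)
    (h' : fwd v 0 1 (l + 1) ^ 2 + fwd v 0 1 (l + 2) ^ 2 ≠ 0) :
    alp (fwd v a b) (fwd v 0 1) (l + 1) - alp (fwd v a b) (fwd v 0 1) l =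
      -(a * (fwd v 0 1 l * fwd v 0 1 (l + 1) +
        (v (l + 1) * fwd v 0 1 l + fwd v 0 1 (l + 1)) * fwd v 0 1 (l + 2))) /
        ((fwd v 0 1 l ^ 2 + fwd v 0 1 (l + 1) ^ 2) *
          (fwd v 0 1 (l + 1) ^ 2 + fwd v 0 1 (l + 2) ^ 2)) := by
  sorry

theorem alp_zero (v : ℕ → F) (a b : F) : alp (fwd v a b) (fwd v 0 1) 0 = b := by
  sorry

/-- `alp` is affine in the second initial datum. -/
theorem alp_add (v : ℕ → F) (a b : F) (l : ℕ)
    (h : fwd v 0 1 l ^ 2 + fwd v 0 1 (l + 1) ^ 2 ≠ 0) :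
    alp (fwd v a b) (fwd v 0 1) l = alp (fwd v a 0) (fwd v 0 1) l + b := by
  sorry

end alpha

/-! ### two-sided solutions -/

theorem isSol_solZ (V : ℤ → ℝ) (c : ℤ) (a b : ℝ) : IsSol V (solZ V c a b) := by
  sorry

theorem solZ_base (V : ℤ → ℝ) (c : ℤ) (a b : ℝ) : solZ V c a b c = a ∧ solZ V c a b (c + 1) = b := by
  sorry

theorem IsSol.rt {V ψ : ℤ → ℝ} (h : IsSol V ψ) (c : ℤ) (j : ℕ) :
    ψ (c + j) = fwd (rt V c) (ψ c) (ψ (c + 1)) j := by
  sorry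

theorem IsSol.lf {V ψ : ℤ → ℝ} (h : IsSol V ψ) (c : ℤ) (j : ℕ) :
    ψ (c - j) = fwd (lf V c) (ψ c) (ψ (c - 1)) j := by
  sorry

theorem IsSol.eq_solZ {V ψ : ℤ → ℝ} (h : IsSol V ψ) (c : ℤ) :
    ψ = solZ V c (ψ c) (ψ (c + 1)) := by
  sorry

theorem IsSol.wronsk {V ψ φ : ℤ → ℝ} (h : IsSol V ψ) (h' : IsSol V φ) (i j : ℤ) :
    ψ i * φ (i + 1) - ψ (i + 1) * φ i = ψ j * φ (j + 1) - ψ (j + 1) * φ j := by
  sorry

/-- every solution is a combination of `ψ` (with `ψ c = 1`) and the Dirichlet solution at `c`. -/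
theorem IsSol.decomp {V ψ φ : ℤ → ℝ} (h : IsSol V ψ) (h' : IsSol V φ) (c : ℤ) (hc : ψ c = 1)
    (j : ℤ) :
    φ j = φ c * ψ j + (ψ c * φ (c + 1) - ψ (c + 1) * φ c) * solZ V c 0 1 j := by
  sorry

/-- antisymmetry of the Dirichlet kernel. -/
theorem solZ_antisymm (V : ℤ → ℝ) (c d : ℤ) : solZ V c 0 1 d = -solZ V d 0 1 c := by
  sorry

theorem solZ_rt (V : ℤ → ℝ) (c : ℤ) (j : ℕ) : solZ V c 0 1 (c + j) = fwd (rt V c) 0 1 j := by
  sorry

theorem solZ_lf (V : ℤ → ℝ) (c : ℤ) (j : ℕ) : solZ V c 0 1 (c - j) = -fwd (lf V c) 0 1 j := by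
  sorry

theorem IsSol.rf {V ψ : ℤ → ℝ} (h : IsSol V ψ) : IsSol (rf V) (fun j => ψ (-j)) := by
  sorry

theorem rt_rf (V : ℤ → ℝ) (c : ℤ) : rt (rf V) (-c) = lf V c := by
  sorry

theorem lf_rf (V : ℤ → ℝ) (c : ℤ) : lf (rf V) (-c) = rt V c := by
  sorry

theorem Peak.rf {ω : ℝ} {V : ℤ → ℝ} {S : ℕ} {c : ℤ} {ψ : ℤ → ℝ} {a b : ℤ}
    (h : Peak ω V S c ψ a b) : Peak ω (rf V) S (-c) (fun j => ψ (-j)) (-b) (-a) := by
  sorry

/-- continuity of the solutions in the potentials (product topology). -/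
theorem continuous_fwd (a b : ℝ) (j : ℕ) : Continuous (fun v : ℕ → ℝ => fwd v a b j) := by
  sorry

theorem continuous_solZ (c : ℤ) (a b : ℝ) (j : ℤ) :
    Continuous (fun V : ℤ → ℝ => solZ V c a b j) := by
  sorry

end Crest.Agent.R128b
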