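import Crest.Agent.R128b.Lin

/-! # Linear recurrences: real estimates (task LinR) -/

set_option autoImplicit false

namespace Crest.Agent.R128b

variable {ω : ℝ}

theorem pn_fwd_pos (v : ℕ → ℝ) (j : ℕ) : 0 < pn (fwd v 0 1) j := by
  sorry

/-- one step changes the pair norm by a factor at most `ω ^ nn` (both directions). -/
theorem pn_succ_le (hω : 10000 ≤ ω) {v : ℕ → ℝ} (hv : Bdd ω v) (a b : ℝ) (j : ℕ) :
    pn (fwd v a b) (j + 1) ≤ ω ^ nn * pn (fwd v a b) j ∧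
      pn (fwd v a b) j ≤ ω ^ nn * pn (fwd v a b) (j + 1) := by
  sorry

theorem pn_le_pow (hω : 10000 ≤ ω) {v : ℕ → ℝ} (hv : Bdd ω v) (a b : ℝ) (i j : ℕ) :
    pn (fwd v a b) (i + j) ≤ ω ^ (nn * j) * pn (fwd v a b) i ∧
      pn (fwd v a b) i ≤ ω ^ (nn * j) * pn (fwd v a b) (i + j) := by
  sorry

theorem pz_succ_le (hω : 10000 ≤ ω) {V ψ : ℤ → ℝ} (hV : Bdd ω V) (h : IsSol V ψ) (j : ℤ) :
    pz ψ (j + 1) ≤ ω ^ nn * pz ψ j ∧ pz ψ j ≤ ω ^ nn * pz ψ (j + 1) := by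
  sorry

/-- crude kernel bound. -/
theorem abs_ker_le (hω : 10000 ≤ ω) {v : ℕ → ℝ} (hv : Bdd ω v) (l j : ℕ) (h : l < j) :
    |ker v l j| ≤ ω ^ (nn * (j - l - 1)) := by
  sorry

/-- kernel bound through a bounded solution `fwd v 1 τ`. -/
theorem abs_ker_le_of_sol (v : ℕ → ℝ) (τ : ℝ) (l j : ℕ) (h : l ≤ j) :
    |ker v l j| ≤ |fwd v 1 τ l| * |fwd v 0 1 j| + |fwd v 0 1 l| * |fwd v 1 τ j| := by
  sorry

/-- Wronskian lower bound. -/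
theorem one_le_pn_mul (v : ℕ → ℝ) (τ : ℝ) (j : ℕ) :
    1 ≤ 2 * pn (fwd v 1 τ) j * pn (fwd v 0 1) j := by
  sorry

theorem abs_alp_succ_le (hω : 10000 ≤ ω) {v : ℕ → ℝ} (hv : Bdd ω v) (a b : ℝ) (l : ℕ) :
    |alp (fwd v a b) (fwd v 0 1) (l + 1) - alp (fwd v a b) (fwd v 0 1) l| ≤
      |a| * ω ^ nn / (pn (fwd v 0 1) l * pn (fwd v 0 1) (l + 1)) := by
  sorry

theorem abs_alp_le (v : ℕ → ℝ) (a b : ℝ) (l : ℕ) :
    |alp (fwd v a b) (fwd v 0 1) l| ≤ 2 * pn (fwd v a b) l / pn (fwd v 0 1) l := by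
  sorry

theorem pn_le_alp (v : ℕ → ℝ) (a b : ℝ) (l : ℕ) :
    pn (fwd v a b) l ≤ |alp (fwd v a b) (fwd v 0 1) l| * pn (fwd v 0 1) l +
      |a| / pn (fwd v 0 1) l := by
  sorry

/-- a clean step in the ascending state. -/
theorem clean_step {v : ℕ → ℝ} (a b : ℝ) (s : ℕ) (hc : ¬ crit ω (v (s + 1)))
    (h : |fwd v a b s| ≤ |fwd v a b (s + 1)|) :
    ω ^ (NN - 1) * |fwd v a b (s + 1)| ≤ |fwd v a b (s + 2)| := by
  sorry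

/-- a clean step in the descending state, read backwards. -/
theorem clean_step_back {v : ℕ → ℝ} (a b : ℝ) (s : ℕ) (hc : ¬ crit ω (v (s + 1)))
    (h : |fwd v a b (s + 2)| ≤ |fwd v a b (s + 1)|) :
    ω ^ (NN - 1) * |fwd v a b (s + 1)| ≤ |fwd v a b s| := by
  sorry

/-- clean ascent: from an ascending state at `l ≥ 1`, clean steps `l, …, l + r - 1`. -/
theorem clean_ascent (hω : 10000 ≤ ω) {v : ℕ → ℝ} (a b : ℝ) (l r : ℕ) (hl : 1 ≤ l)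
    (h : |fwd v a b (l - 1)| ≤ |fwd v a b l|)
    (hc : ∀ s, l ≤ s → s < l + r → ¬ crit ω (v s)) :
    ∀ s, l ≤ s → s < l + r → ω ^ (NN - 1) * |fwd v a b s| ≤ |fwd v a b (s + 1)| := by
  sorry

/-! ### running maximum -/

theorem rm_one (v : ℕ → ℝ) : rm v 1 = 1 := by
  sorry

theorem one_le_rm (v : ℕ → ℝ) (j : ℕ) : 1 ≤ rm v j := by
  sorry

theorem rm_mono (v : ℕ → ℝ) : Monotone (rm v) := by
  sorry

theorem abs_le_rm (v : ℕ → ℝ) {s j : ℕ} (h : s ≤ j) : |fwd v 0 1 s| ≤ rm v j := by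
  sorry

theorem rm_le (v : ℕ → ℝ) (j : ℕ) (M : ℝ) (h1 : 1 ≤ M)
    (h : ∀ s, 1 ≤ s → s ≤ j → |fwd v 0 1 s| ≤ M) : rm v j ≤ M := by
  sorry

theorem rm_succ_le (hω : 10000 ≤ ω) {v : ℕ → ℝ} (hv : Bdd ω v) (j : ℕ) :
    rm v (j + 1) ≤ ω ^ nn * rm v j := by
  sorry

theorem rm_le_pow (hω : 10000 ≤ ω) {v : ℕ → ℝ} (hv : Bdd ω v) (j : ℕ) :
    rm v j ≤ ω ^ (nn * (j - 1)) := by
  sorry

theorem le_band_iff (hω : 10000 ≤ ω) (v : ℕ → ℝ) (j β : ℕ) :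
    β ≤ band ω v j ↔ ω ^ (6 * nn * β) ≤ rm v j := by
  sorry

theorem band_mono (hω : 10000 ≤ ω) (v : ℕ → ℝ) : Monotone (band ω v) := by
  sorry

theorem band_succ_le (hω : 10000 ≤ ω) {v : ℕ → ℝ} (hv : Bdd ω v) (j : ℕ) :
    band ω v (j + 1) ≤ band ω v j + 1 := by
  sorry

/-- number of robust records in a level range. -/
theorem card_rec_le (hω : 10000 ≤ ω) (v : ℕ → ℝ) (F : Finset ℕ) (A : ℝ) (hA : 0 < A) (L : ℕ)
    (h : ∀ R ∈ F, Rec ω v R ∧ A ≤ |fwd v 0 1 R| ∧ |fwd v 0 1 R| ≤ A * ω ^ L) :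
    F.card ≤ L / (hh - 1) + 1 := by
  sorry

end Crest.Agent.R128b
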