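import Crest.Agent.R128b.LinR

/-! # Orbits: algebra, derivatives, estimates for `g` (task Orb) -/

set_option autoImplicit false

namespace Crest.Agent.R128b

variable {ω : ℝ}

theorem orbR_succ_succ (ω a b : ℝ) (j : ℕ) :
    orbR ω a b (j + 2) = gR ω (orbR ω a b (j + 1)) - orbR ω a b j := rfl
theorem orbC_succ_succ (ω : ℝ) (a b : ℂ) (j : ℕ) :
    orbC ω a b (j + 2) = gC ω (orbC ω a b (j + 1)) - orbC ω a b j := rfl

theorem gC_ofReal (ω x : ℝ) : gC ω (x : ℂ) = (gR ω x : ℂ) := by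
  sorry
theorem vC_ofReal (ω x : ℝ) : vC ω (x : ℂ) = (vR ω x : ℂ) := by
  sorry
theorem orbC_ofReal (ω a b : ℝ) (j : ℕ) : orbC ω (a : ℂ) (b : ℂ) j = (orbR ω a b j : ℂ) := by
  sorry
theorem potC_ofReal (ω a b : ℝ) (j : ℕ) : potC ω (a : ℂ) (b : ℂ) j = (potR ω a b j : ℂ) := by
  sorry
theorem yC_ofReal (ω a b : ℝ) (j : ℕ) : yC ω (a : ℂ) (b : ℂ) j = (yR ω a b j : ℂ) := by
  sorry
theorem uC_ofReal (ω a b : ℝ) (j : ℕ) :
    uC ω (a : ℂ) (b : ℂ) j = (fwd (potR ω a b) 1 0 j : ℝ) := by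
  sorry

theorem orbR_shift (ω a b : ℝ) (t j : ℕ) :
    orbR ω a b (t + j) = orbR ω (orbR ω a b t) (orbR ω a b (t + 1)) j := by
  sorry
theorem orbC_shift (ω : ℝ) (a b : ℂ) (t j : ℕ) :
    orbC ω a b (t + j) = orbC ω (orbC ω a b t) (orbC ω a b (t + 1)) j := by
  sorry
theorem potR_shift (ω a b : ℝ) (t : ℕ) :
    (fun j => potR ω a b (t + j)) = potR ω (orbR ω a b t) (orbR ω a b (t + 1)) := by
  sorry

/-- time reversal: the orbit started from `(x (e+1), x e)` retraces the orbit backwards. -/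
theorem orbR_rev (ω a b : ℝ) (e i : ℕ) (h : i ≤ e + 1) :
    orbR ω (orbR ω a b (e + 1)) (orbR ω a b e) i = orbR ω a b (e + 1 - i) := by
  sorry

/-- integer translations. -/
theorem orbR_add_int (ω a b : ℝ) (m n : ℤ) (j : ℕ) :
    ∃ r : ℤ, orbR ω (a + m) (b + n) j = orbR ω a b j + r := by
  sorry
theorem potR_add_int (ω a b : ℝ) (m n : ℤ) : potR ω (a + m) (b + n) = potR ω a b := by
  sorry
theorem gR_add_int (ω x : ℝ) (m : ℤ) : gR ω (x + m) = gR ω x + 2 * m := by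
  sorry

theorem bdd_potR (hω : 0 ≤ ω) (a b : ℝ) : Bdd ω (potR ω a b) := by
  sorry

theorem hasDerivAt_gC (ω : ℝ) (x : ℂ) : HasDerivAt (gC ω) (vC ω x) x := by
  sorry
theorem hasDerivAt_gR (ω x : ℝ) : HasDerivAt (gR ω) (vR ω x) x := by
  sorry
theorem hasDerivAt_orbC (ω : ℝ) (a w : ℂ) (j : ℕ) :
    HasDerivAt (fun w => orbC ω a w j) (yC ω a w j) w := by
  sorry
theorem hasDerivAt_orbR (ω a z : ℝ) (j : ℕ) :
    HasDerivAt (fun z => orbR ω a z j) (yR ω a z j) z := by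
  sorry
theorem differentiable_orbC (ω : ℝ) (a : ℂ) (j : ℕ) :
    Differentiable ℂ (fun w => orbC ω a w j) := by
  sorry
theorem differentiable_potC (ω : ℝ) (a : ℂ) (j : ℕ) :
    Differentiable ℂ (fun w => potC ω a w j) := by
  sorry
theorem differentiable_yC (ω : ℝ) (a : ℂ) (j : ℕ) : Differentiable ℂ (fun w => yC ω a w j) := by
  sorry
theorem differentiable_uC (ω : ℝ) (a : ℂ) (j : ℕ) : Differentiable ℂ (fun w => uC ω a w j) := by
  sorry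
theorem continuous_orbR (ω : ℝ) (j : ℕ) : Continuous (fun p : ℝ × ℝ => orbR ω p.1 p.2 j) := by
  sorry
theorem continuous_potR (ω : ℝ) : Continuous (fun p : ℝ × ℝ => potR ω p.1 p.2) := by
  sorry
theorem continuous_gR (ω : ℝ) : Continuous (gR ω) := by
  sorry

/-! estimates near the real axis (`cosh (2π/10) < 1.3`) -/

theorem norm_vC_le (hω : 10000 ≤ ω) (x : ℝ) (δ : ℂ) (h : ‖δ‖ ≤ 1 / 10) :
    ‖vC ω (x + δ)‖ ≤ 2 * ω ^ NN := by
  sorry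
theorem norm_gC_sub_le (hω : 10000 ≤ ω) (x : ℝ) (δ : ℂ) (h : ‖δ‖ ≤ 1 / 10) :
    ‖gC ω (x + δ) - gC ω x‖ ≤ 2 * ω ^ NN * ‖δ‖ := by
  sorry
theorem norm_gC_taylor_le (hω : 10000 ≤ ω) (x : ℝ) (δ : ℂ) (h : ‖δ‖ ≤ 1 / 10) :
    ‖gC ω (x + δ) - gC ω x - vC ω x * δ‖ ≤ 5 * ω ^ NN * ‖δ‖ ^ 2 := by
  sorry
theorem abs_vR_sub_le (hω : 0 ≤ ω) (x y : ℝ) : |vR ω x - vR ω y| ≤ 7 * ω ^ NN * |x - y| := by
  sorry

/-- mean slope of `g` between two real points. -/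
theorem exists_slope (hω : 0 ≤ ω) (x y : ℝ) :
    ∃ s : ℝ, gR ω x - gR ω y = s * (x - y) ∧ |s| ≤ ω ^ NN + 2 ∧
      |s - vR ω x| ≤ 7 * ω ^ NN * |x - y| := by
  sorry

end Crest.Agent.R128b
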