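import Crest.Agent.R128b.Orb

/-! # The perturbation lemma (task PL) -/

set_option autoImplicit false

namespace Crest.Agent.R128b

variable {ω : ℝ}

/-- PL: a complex orbit started near a real orbit follows the linearisation, as long as the
quadratic errors, propagated by the kernel, stay below the weights. -/
theorem pl (hω : 10000 ≤ ω) (a b : ℝ) (a' b' : ℂ) (J : ℕ) (B E : ℕ → ℝ)
    (hB : ∀ l, 1 ≤ l → l < J →
      ‖fwd (fun i => (potR ω a b i : ℂ)) (a' - a) (b' - b) l‖ ≤ B l ∧ 2 * B l ≤ 1 / 10 ∧ E l ≤ B l)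
    (hE : ∀ j ≤ J, ∑ l ∈ Finset.Ico 1 j, |ker (potR ω a b) l j| * (20 * ω ^ NN * B l ^ 2) ≤ E j) :
    ∀ j ≤ J, ‖orbC ω a' b' j - (orbR ω a b j : ℂ) -
      fwd (fun i => (potR ω a b i : ℂ)) (a' - a) (b' - b) j‖ ≤ E j := by
  sorry

/-- real version of `pl`. -/
theorem plR (hω : 10000 ≤ ω) (a b a' b' : ℝ) (J : ℕ) (B E : ℕ → ℝ)
    (hB : ∀ l, 1 ≤ l → l < J →
      |fwd (potR ω a b) (a' - a) (b' - b) l| ≤ B l ∧ 2 * B l ≤ 1 / 10 ∧ E l ≤ B l)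
    (hE : ∀ j ≤ J, ∑ l ∈ Finset.Ico 1 j, |ker (potR ω a b) l j| * (20 * ω ^ NN * B l ^ 2) ≤ E j) :
    ∀ j ≤ J, |orbR ω a' b' j - orbR ω a b j - fwd (potR ω a b) (a' - a) (b' - b) j| ≤ E j := by
  sorry

/-- on a vertical line the linearisation is `(w - z) y`. -/
theorem fwd_line (ω ξ z : ℝ) (w : ℂ) (j : ℕ) :
    fwd (fun i => (potR ω ξ z i : ℂ)) ((ξ : ℂ) - ξ) (w - z) j = (w - z) * (yR ω ξ z j : ℂ) := by
  sorry

/-- crude tameness: near a point whose solution `fwd v 1 τ` is bounded on `[0, J]`, with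
`rm v J ≤ M`, the orbits from the disc of radius `ρ` stay within `2 ρ M`. -/
theorem crude_tame (hω : 10000 ≤ ω) (ξ z τ M ρ : ℝ) (J : ℕ)
    (hψ : ∀ j ≤ J, |fwd (potR ω ξ z) 1 τ j| ≤ 3) (hM : rm (potR ω ξ z) J ≤ M) (hρ : 0 ≤ ρ)
    (hsmall : 120 * (J + 1) * ω ^ NN * M ^ 2 * ρ ≤ 1) (w : ℂ) (hw : ‖w - z‖ ≤ ρ) :
    ∀ j ≤ J, ‖orbC ω ξ w j - (orbR ω ξ z j : ℂ)‖ ≤ 2 * ρ * M := by
  sorry

/-- oscillations grow by at most `ω ^ nn` per step while they are below `1/10`. -/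
theorem osc_step (hω : 10000 ≤ ω) (ξ ζ : ℝ) (w : ℂ) (l : ℕ) (x : ℝ)
    (h0 : ‖orbC ω ξ w l - orbC ω ξ ζ l‖ ≤ x) (h1 : ‖orbC ω ξ w (l + 1) - orbC ω ξ ζ (l + 1)‖ ≤ x)
    (hx : ‖orbC ω ξ w (l + 1) - orbC ω ξ ζ (l + 1)‖ ≤ 1 / 10) :
    ‖orbC ω ξ w (l + 2) - orbC ω ξ ζ (l + 2)‖ ≤ ω ^ nn * x := by
  sorry

end Crest.Agent.R128b
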