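import Crest.Agent.R128b.Cplx

/-! # Lagrange and Remez estimates (task Remez) -/

set_option autoImplicit false

namespace Crest.Agent.R128b

open Metric MeasureTheory

/-- Lagrange bound: nodes `x 0 < … < x d` real with gaps `≥ s`, all within `D` of `w`. -/
theorem lagrange_bound (P : Polynomial ℂ) (d : ℕ) (hP : P.natDegree ≤ d) (x : ℕ → ℝ) (s D M : ℝ)
    (hs : 0 < s) (hx : ∀ i < d, x i + s ≤ x (i + 1)) (w : ℂ) (hD : ∀ i ≤ d, ‖w - x i‖ ≤ D)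
    (hM : ∀ i ≤ d, ‖P.eval (x i : ℂ)‖ ≤ M) :
    ‖P.eval w‖ ≤ M * ((2 * D / s) ^ d / (Nat.factorial d : ℝ)) := by
  sorry

/-- a closed bounded set of measure `> d s` contains `d + 1` points with gaps `≥ s`. -/
theorem exists_nodes (E : Set ℝ) (hE : IsCompact E) (d : ℕ) (s : ℝ) (hs : 0 < s)
    (h : ENNReal.ofReal (d * s) < volume E) :
    ∃ x : ℕ → ℝ, (∀ i ≤ d, x i ∈ E) ∧ ∀ i < d, x i + s ≤ x (i + 1) := by
  sorry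

/-- RL: Remez-type sublevel estimate for a bounded holomorphic function. -/
theorem remez {f : ℂ → ℂ} (ζ : ℝ) {R r B μ τ γ : ℝ} (k : ℕ) (hk : 1 ≤ k) (hr : 0 < r)
    (hrR : 2 * r ≤ R) (hf : DifferentiableOn ℂ f (ball (ζ : ℂ) R))
    (hB : ∀ w ∈ ball (ζ : ℂ) R, ‖f w‖ ≤ B) (w0 : ℂ) (hw0 : ‖w0 - ζ‖ ≤ r) (hμ : μ ≤ ‖f w0‖)
    (hτ : 0 < τ) (hτμ : 8 * τ ≤ μ) (hγ : 1 ≤ γ) (hγk : γ ^ k ≤ R / r)
    (hmain : 2 * B / τ ≤ (μ / (8 * τ)) ^ k) :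
    volume {x ∈ Set.Icc (ζ - r) (ζ + r) | ‖f x‖ ≤ τ} ≤ ENNReal.ofReal (30 * r / γ) := by
  sorry

end Crest.Agent.R128b
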