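import Crest.Agent.R128b.PL
import Crest.Agent.R128b.Decay

/-! # Shadowing along a hyperbolic stretch (tasks Shadow1, Shadow2) -/

set_option autoImplicit false

namespace Crest.Agent.R128b

variable {ω : ℝ}

/-- S1: existence of a shadowing point on a Lipschitz graph.  Shoot backwards from index `e`
with displacement `s ψ̂` (`ψ̂` from `decay_zero`, `plR` for the reversed orbit, weights
`3 / ω ^ ((NN-14) j)`, crude kernel bound), and use the intermediate value theorem in `s ∈ [-3, 3]`. -/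
theorem shadow_exists (hω : 10000 ≤ ω) {H e : ℕ} (hH : 1 ≤ H) (he : e = H ∨ e = H + 1)
    (α ξ : ℝ) (hR : Rgood ω (NN - 2) H (potR ω α ξ))
    (hy : pn (yR ω α ξ) H ≤ ω * |yR ω α ξ e|) (υ : ℝ → ℝ) (hυ : LipschitzWith 1 υ)
    (hα : |υ ξ - α| ≤ 2) : ∃ ξ', Sh ω H e α ξ (υ ξ') ξ' := by
  sorry

/-- S2: the shadowing point is hyperbolic, with the same end pair up to a small error (`rp`). -/
theorem shadow_good (hω : 10000 ≤ ω) {H e : ℕ} (hH : 1 ≤ H) {α ξ β ξ' : ℝ}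
    (hR : Rgood ω (NN - 2) H (potR ω α ξ)) (hS : Sh ω H e α ξ β ξ') :
    Rgood ω (NN - 3) H (potR ω β ξ') ∧
      |yR ω β ξ' H - yR ω α ξ H| ≤ 2 * pn (yR ω α ξ) H / ω ^ (NN - 29) ∧
      |yR ω β ξ' (H + 1) - yR ω α ξ (H + 1)| ≤ 2 * pn (yR ω α ξ) H / ω ^ (NN - 29) := by
  sorry

/-- S3: the holonomy is almost isometric.  The differences of the two orbits on the vertical line,
and of the two orbits on the graph, solve linear recurrences with mean slopes (`exists_slope`)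
and agree at index `e`; compare both with `yR ω α ξ₁ e` by `rp`. -/
theorem shadow_lip (hω : 10000 ≤ ω) {H e : ℕ} (hH : 1 ≤ H) (he : e = H ∨ e = H + 1)
    {α ξ₁ ξ₂ ξ₁' ξ₂' : ℝ} (υ : ℝ → ℝ) (hυ : LipschitzWith 1 υ)
    (hR : Rgood ω (NN - 2) H (potR ω α ξ₁))
    (hy : pn (yR ω α ξ₁) H ≤ ω * |yR ω α ξ₁ e|)
    (h₁ : Sh ω H e α ξ₁ (υ ξ₁') ξ₁') (h₂ : Sh ω H e α ξ₂ (υ ξ₂') ξ₂')
    (hc : |ξ₁' - ξ₂'| ≤ 1 / ω ^ (3 * nn * (H + 1))) :
    |ξ₁ - ξ₂| ≤ (1 + 1 / ω) * |ξ₁' - ξ₂'| := by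
  sorry

end Crest.Agent.R128b
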